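import Mathlib

/-!
P324 (three machines, unit jobs, precedence constraints): for precedence orders of width at most 3
a schedule of length `T` exists iff every chain has at most `T` jobs.
-/

namespace Vale.Agent.Results.P324.WidthThree

open Finset

theorem result : ∀ (V : Type) [Fintype V] [PartialOrder V],
    (∀ s : Finset V, IsAntichain (· ≤ ·) (s : Set V) → s.card ≤ 3) →
    ∀ T : ℕ,
      (∃ τ : V → ℕ, (∀ v, 1 ≤ τ v ∧ τ v ≤ T) ∧
        (∀ t : ℕ, ∀ s : Finset V, (∀ v ∈ s, τ v = t) → s.card ≤ 3) ∧
        (∀ u v, u < v → τ u < τ v)) ↔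
      (∀ c : Finset V, IsChain (· ≤ ·) (c : Set V) → c.card ≤ T) := by
  classical
  intro V _ _ hw T
  constructor
  · rintro ⟨τ, h1, -, h3⟩ c hc
    have hinj : Set.InjOn τ (c : Set V) := by
      intro u hu v hv huv
      by_contra hne
      rcases hc hu hv hne with h | h
      · exact absurd huv (h3 u v (lt_of_le_of_ne h hne)).ne
      · exact absurd huv (h3 v u (lt_of_le_of_ne h (Ne.symm hne))).ne'
    have hmaps : ∀ v ∈ c, τ v ∈ Finset.Icc 1 T := fun v _ => Finset.mem_Icc.2 (h1 v)
    have := Finset.card_le_card_of_injOn τ hmaps hinj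
    simpa using this
  · intro hT
    set F : V → Finset (Finset V) := fun v =>
      univ.filter (fun c : Finset V => IsChain (· ≤ ·) (c : Set V) ∧ ∀ x ∈ c, x ≤ v) with hF
    set τ : V → ℕ := fun v => (F v).sup Finset.card with hτ
    have hsing : ∀ v, ({v} : Finset V) ∈ F v := by
      intro v
      simp only [hF, Finset.mem_filter, Finset.mem_univ, true_and]
      refine ⟨by simp, ?_⟩
      intro x hx
      rw [Finset.mem_singleton.1 hx]
    have hmono : ∀ u v, u < v → τ u < τ v := by
      intro u v huv
      obtain ⟨c, hc, hcs⟩ := Finset.exists_mem_eq_sup (F u) ⟨_, hsing u⟩ Finset.card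
      simp only [hF, Finset.mem_filter, Finset.mem_univ, true_and] at hc
      have hv : v ∉ c := fun h => absurd (hc.2 v h) (not_le_of_gt huv)
      have hmem : insert v c ∈ F v := by
        simp only [hF, Finset.mem_filter, Finset.mem_univ, true_and]
        refine ⟨?_, ?_⟩
        · rw [Finset.coe_insert]
          refine hc.1.insert (fun b hb _ => Or.inr ((hc.2 b hb).trans huv.le))
        · intro x hx
          rcases Finset.mem_insert.1 hx with rfl | hx
          · exact le_rfl
          · exact (hc.2 x hx).trans huv.le
      have h5 : (insert v c).card ≤ τ v := Finset.le_sup (f := Finset.card) hmem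
      rw [Finset.card_insert_of_notMem hv] at h5
      have h6 : τ u = c.card := hcs
      omega
    refine ⟨τ, fun v => ⟨?_, ?_⟩, ?_, hmono⟩
    · have : ({v} : Finset V).card ≤ τ v := Finset.le_sup (f := Finset.card) (hsing v)
      simpa using this
    · refine Finset.sup_le (fun c hc => ?_)
      simp only [hF, Finset.mem_filter, Finset.mem_univ, true_and] at hc
      exact hT c hc.1
    · intro t s hs
      refine hw s ?_
      intro u hu v hv hne hle
      have := hmono u v (lt_of_le_of_ne hle hne)
      rw [hs u hu, hs v hv] at this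
      exact lt_irrefl _ this

end Vale.Agent.Results.P324.WidthThree
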